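import Vale.Agent.P269.Kit.Vir
import Vale.Agent.P269.Asm.QGood

/-!
# The series of the four degenerations
-/

set_option linter.unusedSectionVars false

namespace Vale.Agent.P269.Pre

open P291Z Set Function Topology Filter MvPolynomial Fock

variable {R J K : Type} [Fintype R] [Fintype J] [Fintype K] [DecidableEq R] (P : Pre R J K)

/-- The cone of the left piece. -/
abbrev AL (e' : Bool) : Set ((Option Empty → ℂ) × (P.QJ → ℂ)) := (P.pL false e').cone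

/-- The cone of the right piece. -/
abbrev AR (e : Bool) : Set ((Option Empty → ℂ) × (P.QJ → ℂ)) := (P.pR e false).cone

/-- The cone of the divisor. -/
abbrev AD : Set ((Option Empty → ℂ) × (P.QJ → ℂ)) := (P.pD false false).cone

/-- The cone of a general fibre. -/
abbrev AX (e e' : Bool) (t : ℂ) : Set ((Option Empty → ℂ) × (P.QJ → ℂ)) := (P.pX e e' t).cone

variable [DecidableEq P.QJ]

section defs

variable {V : Type} [AddCommGroup V] [Module ℂ V]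

/-- The relative invariants of the left piece. -/
noncomputable def sL (e' : Bool) (p : Fock.Par ℂ V) (i : V →ₗ[ℂ] H (P.W.X (P.AL e'))) (D : Deg.Dv)
    (iD : D.H →ₗ[ℂ] H (P.W.X P.AD)) : Deg.Ser (R ⊕ Bool → ℤ) (Deg.pR p D) :=
  (P.pL false e').serR P.k P.W.ex0 p i (Pi.single P.c 1) D iD

/-- The relative invariants of the right piece. -/
noncomputable def sR (e : Bool) (p : Fock.Par ℂ V) (i : V →ₗ[ℂ] H (P.W.X (P.AR e))) (D : Deg.Dv)
    (iD : D.H →ₗ[ℂ] H (P.W.X P.AD)) : Deg.Ser (R ⊕ Bool → ℤ) (Deg.pR p D) :=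
  (P.pR e false).serR P.k P.W.ex0 p i (Pi.single P.b 1) D iD

/-- The invariants of a general fibre. -/
noncomputable def sX (e e' : Bool) (t : ℂ) (p : Fock.Par ℂ V) (i : V →ₗ[ℂ] H (P.W.X (P.AX e e' t))) :
    Deg.Ser (R ⊕ Bool → ℤ) (Deg.pT p) := (P.pX e e' t).serA P.k P.W.ex0 p i

end defs

variable {P} (h : P.Ok)
include h

theorem Ok.dk (e e' : Bool) : (P.fam e e').DK (.inr false) P.b P.c P.Ω P.k P.g :=
  ⟨h.fam_deg e e', h.good e e', ⟨_, h.fam_reg e e'⟩, h.big e e' subset_rfl _, three_deg,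
    fun _ => rfl⟩

theorem Ok.niceX (e e' : Bool) {t : ℂ} (ht : t ∈ P.Ω) (h0 : t ≠ 0) : (P.pX e e' t).Nice 0 :=
  (h.dk e e').nice.2.2.2 t ht h0

theorem Ok.bigX (e e' : Bool) {t : ℂ} (ht : t ∈ P.Ω) : (P.pX e e' t).Big P.k :=
  (h.dk e e').bigs ht _

variable (hK : St.Kit) {D : Deg.Dv} {iD : D.H →ₗ[ℂ] H (P.W.X P.AD)} {e e' : Bool} {t : ℂ}
include hK

theorem Ok.sL_eq (e : Bool) {V : Type} [AddCommGroup V] [Module ℂ V] {p : Fock.Par ℂ V}
    (i : V →ₗ[ℂ] H (P.W.X (P.AL e'))) :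
    (P.pL e e').serR P.k P.W.ex0 p i (Pi.single P.c 1) D iD = P.sL e' p i D iD :=
  have a := h.dk false e'
  Fam.serR_eqs (F := P.pL false e') hK.e0 (cone_pL e false e') a.nice.1 (h.dk e e').nice.1
    (Fam.DK.cp _ _) (a.bigs h.zero _) (Fam.exOk0 hK.selC a.nice.1.toGood (a.bigs h.zero _))
    subset_rfl (a.dvsL.trans (cone_pD _ _ _ _).subset) iD

theorem Ok.sR_eq (e' : Bool) {V : Type} [AddCommGroup V] [Module ℂ V] {p : Fock.Par ℂ V}
    (i : V →ₗ[ℂ] H (P.W.X (P.AR e))) :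
    (P.pR e e').serR P.k P.W.ex0 p i (Pi.single P.b 1) D iD = P.sR e p i D iD :=
  have a := h.dk e false
  Fam.serR_eqs (F := P.pR e false) hK.e0 (cone_pR e e' false) a.nice.2.1 (h.dk e e').nice.2.1
    (Fam.DK.cp _ _) (a.bigs h.zero _) (Fam.exOk0 hK.selC a.nice.2.1.toGood (a.bigs h.zero _))
    subset_rfl (a.dvsR.trans (cone_pD _ _ _ _).subset) iD

theorem Ok.relL {C : Deg.Coh} {i : C.H →ₗ[ℂ] H (P.W.X (P.AL e'))} (eC : IsEv C.p (parH _) i)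
    (eD : IsEv D.p (parH _) iD) : (P.sL e' C.p i D iD).RelL P.g :=
  (h.dk false e').relL hK subset_rfl (cone_pD _ _ _ _).subset eC eD

theorem Ok.relR {C : Deg.Coh} {i : C.H →ₗ[ℂ] H (P.W.X (P.AR e))} (eC : IsEv C.p (parH _) i)
    (eD : IsEv D.p (parH _) iD) : (P.sR e C.p i D iD).RelR P.g :=
  (h.dk e false).relR hK subset_rfl (cone_pD _ _ _ _).subset eC eD

variable (ht : t ∈ P.Ω) (h0 : t ≠ 0)
include ht h0

theorem Ok.abs {C : Deg.Coh} {i : C.H →ₗ[ℂ] H (P.W.X (P.AX e e' t))} (eC : IsEv C.p (parH _) i) :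
    (P.sX e e' t C.p i).Abs P.g := (h.dk e e').abs hK ht h0 subset_rfl eC

theorem Ok.node {C : Deg.Coh} {i : C.H →ₗ[ℂ] H (P.W.X (P.AX e e' t))} (hC : P.W.IsCoh _ C i) :
    (P.sX e e' t C.p i).Node := (h.dk e e').node hK ht h0 rfl hC

variable {Y1 : Deg.Pz D 1} {Y2 : Deg.Pz D (-1)} {X : Deg.Sm Y1 Y2} {AW : Set _}
  {i1 : Y1.H →ₗ[ℂ] H (P.W.X (P.AL e'))} {i2 : Y2.H →ₗ[ℂ] H (P.W.X (P.AR e))}
  {iX : X.H →ₗ[ℂ] H (P.W.X (P.AX e e' t))} {w : X.W →ₗ[ℂ] H (P.W.X AW)}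
  (s : P.W.IsSm X i1 i2 iX w) (cD : P.W.IsCoh _ D.toCoh iD) (e1 : IsEv Y1.p (parH _) i1)
  (e2 : IsEv Y2.p (parH _) i2) (eX : IsEv X.p (parH _) iX) {r : ℝ} (hr : ‖t‖ < r)
  (hW : ∀ z ∈ (P.fam e e').cone, ‖z.1 none‖ < r → z ∈ AW)
include s cD e1 e2 eX hr hW

theorem Ok.g1 : X.G1 P.g (P.sL e' Y1.p i1 D iD) (P.sR e Y2.p i2 D iD) (P.sX e e' t X.p iX) := by
  rw [← h.sL_eq hK e, ← h.sR_eq hK e']
  exact (h.dk e e').g1 hK ht h0 s (cone_pD _ _ _ _) cD (cone_pL _ _ _).subset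
    (cone_pR _ _ _).subset subset_rfl e1 e2 eX hr hW

/-- The smoothing with its invariants. -/
@[reducible] noncomputable def Ok.smo : Deg.Smo P.g (P.sL e' Y1.p i1 D iD) (P.sR e Y2.p i2 D iD) where
  X := X
  Z := P.sX e e' t X.p iX
  abs := h.abs hK ht h0 eX
  g1 := h.g1 hK ht h0 s cD e1 e2 eX hr hW

end Vale.Agent.P269.Pre
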