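import Vale.Agent.P269.Kit.G3C
import Vale.Agent.P269.Coh.EPk

/-!
# The invariants of the three caps from the general statement
-/

set_option linter.unusedSectionVars false

namespace Vale.Agent.P269

open P291Z Set Function Topology Filter MvPolynomial Fock Coh Tq Mono

theorem Wt.lcs_one {S Λ R J : Type} [Fintype S] [Fintype Λ] [Fintype R] [Fintype J]
    (F : Wt S Λ R J) (A) (j : J) :
    F.lcs A (List.ofFn fun _ : Fin (0 + 1) => j) = F.lc A 0 (F.w j) := by simp [Wt.lcs]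

namespace Pre

open G3C

variable {R J K : Type} [Fintype R] [Fintype J] [Fintype K] [DecidableEq R] {P : Pre R J K}
  [DecidableEq P.QJ] (h : P.Ok) {D : Deg.Dv} {iD : D.H →ₗ[ℂ] H (P.W.X P.AD)}
  (cD : P.W.IsCoh _ D.toCoh iD)
include h cD

theorem Ok.capHL {C : Deg.Cz D 1} {i : C.H →ₗ[ℂ] H (P.W.X (P.AL false))} (eC : IsEv C.p (parH _) i)
    (hn : ∀ s, ∃ z, i (C.nul z) = P.W.lc (P.AL false) 0 (P.W.w P.y') * s) :
    (P.pL false false).CapH (ρ := 0) (fun _ => P.y') P.φL (h.pcL false).sub C i iD (h.πD _ _) where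
  ev := eC
  nul s := (hn s).imp fun _ a => a.trans (congrArg (· * s) (P.W.lcs_one _ _).symm)
  inj' := cD.bij.1
  ev' := cD.ev
  fib z z' a := congrArg (Quo.mk _) (Subtype.ext (congrArg P.sc (funext fun j => a _ (tbL.1 _))))
  span a := ⟨fun _ => iD a, by
    rw [Fin.sum_univ_succ, Finset.univ_eq_empty, Finset.sum_empty, add_zero]
    exact ((mul_one _).trans (h.secL _)).symm⟩
  far γ a := by
    rw [h.nulL_inj (a₁ := γ) (a₂ := 0)
      (((congrArg (· * _) (P.W.lcs_one _ _).symm).trans a).trans (map_zero _).symm), map_zero,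
      map_zero]

theorem Ok.capHR {C : Deg.Cz D (-1)} {i : C.H →ₗ[ℂ] H (P.W.X (P.AR false))}
    (eC : IsEv C.p (parH _) i)
    (hn : ∀ s, ∃ z, i (C.nul z) = P.W.lc (P.AR false) 0 (P.W.w P.y) * s) :
    (P.pR false false).CapH (ρ := 0) (fun _ => P.y) P.φR (h.pcR false).sub C i iD (h.πD _ _) where
  ev := eC
  nul s := (hn s).imp fun _ a => a.trans (congrArg (· * s) (P.W.lcs_one _ _).symm)
  inj' := cD.bij.1
  ev' := cD.ev
  fib z z' a := congrArg (Quo.mk _) (Subtype.ext (congrArg P.sc (funext fun j => a _ (tbR.1 _))))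
  span a := ⟨fun _ => iD a, by
    rw [Fin.sum_univ_succ, Finset.univ_eq_empty, Finset.sum_empty, add_zero]
    exact ((mul_one _).trans (h.secR _)).symm⟩
  far γ a := by
    rw [h.nulR_inj (a₁ := γ) (a₂ := 0)
      (((congrArg (· * _) (P.W.lcs_one _ _).symm).trans a).trans (map_zero _).symm), map_zero,
      map_zero]

end Pre

namespace Flag

open Pre G3C

variable {J K : Type} [Fintype J] [Fintype K] [Nonempty J] {f : Flag J K} (h : f.Ok)
include h

/-- Leray-Hirsch for the exceptional divisor. -/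
theorem Ok.spanE (a : P291Z.H (f.pE.W.X f.pE.AD)) : ∃ γ₀ γ₁,
    a = H.map (h.pE.jR true) (H.map h.ρZ γ₀) + H.map (h.pE.jR true) (H.map h.ρZ γ₁) *
      f.pE.W.lc f.pE.AD 0 (f.pE.W.w (f.uv 0)) := by
  obtain ⟨θ, hE⟩ := h.exists_tE
  have m := h.mE hE
  have fp := hE.qm.fp
  have p := (h.Z.tg.pb h.Z.tg.qm hE.qm (Fam.dT_proj _ _ _)).twist
    (h.Z.tg.qm.lc_deg 0 fun _ => f.a + 1)
  have i := m.isD (dT_E.trans n_pE.symm)
  obtain ⟨v, hv⟩ := p.lh.2 (H.map m.eD a)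
  have e : ∀ γ, H.map m.eD (H.map (h.pE.jR true) (H.map h.ρZ γ)) = H.map (h.qE θ) γ := fun γ => by
    rw [H.map_map, H.map_map]
    refine congrArg (H.map · γ) (ContinuousMap.ext (mk_surj.forall.2 fun x => ?_))
    exact congrArg (Quo.mk _) (Subtype.ext (Prod.ext (Subsingleton.elim _ _) (funext fun j =>
      (eval_X _).trans (eval_X _))))
  refine ⟨v 0, v 1, i.bij.1 ?_⟩
  rw [map_add, map_mul, e, e, m.q_lc _ h.pE.qD.fp, ← hv]
  refine (Fin.sum_univ_two _).trans (congrArg₂ (· + ·) (by simp) (congrArg (_ * ·) ?_))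
  rw [h.Z.tg.pj_lc fp, ← Wt.lc_add, add_zero, Fin.val_one, pow_one]
  refine congrArg _ (funext fun o => ?_)
  rw [show f.pE.dχ (f.pE.W.w (f.uv 0)) = _ from f.pE.dχ_up _]
  rcases o with _ | _ <;> simp [chM, Flag.pE, wv]

omit h in
theorem lcs_uv (A) : f.pE.W.lcs A (List.ofFn f.uv) =
    f.pE.W.lc A 0 (f.pE.W.w (f.uv 0)) * f.pE.W.lc A 0 (f.pE.W.w (f.uv 1)) := by
  simp only [Wt.lcs, List.ofFn_succ, List.ofFn_zero, List.map_cons, List.map_nil, List.prod_cons,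
    List.prod_nil, mul_one]
  rfl

theorem Ok.ρZ_fib (z z' : f.pE.AR true) (a : ∀ j, z.1.2 (f.pE.o (.inl j)) = z'.1.2 (f.pE.o (.inl j))) :
    h.ρZ (Quo.mk _ z) = h.ρZ (Quo.mk _ z') :=
  have e : f.pE.ret (X ∘ .inl) z.1 = f.pE.ret (X ∘ .inl) z'.1 := by simp [Pre.ret, a]
  congrArg (Quo.mk _) (Subtype.ext e)

variable [DecidableEq f.pE.QJ] {D : Deg.Dv} {iD : D.H →ₗ[ℂ] P291Z.H (f.pE.W.X f.pE.AD)}
  (cD : f.pE.W.IsCoh _ D.toCoh iD)
include cD

theorem Ok.capHQ {C : Deg.Cz D (-1)} {i : C.H →ₗ[ℂ] P291Z.H (f.pE.W.X (f.pE.AR true))}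
    (eC : IsEv C.p (parH _) i) (hn : ∀ s, ∃ z, i (C.nul z) = f.far * s) :
    (f.pE.pR true false).CapH f.uv f.pE.φQ (h.pE.pcR true).sub C i iD h.ρZ where
  ev := eC
  nul s := (hn s).imp fun _ a => a.trans (congrArg (· * s) (lcs_uv _).symm)
  inj' := cD.bij.1
  ev' := cD.ev
  fib z z' a := h.ρZ_fib z z' fun j => a _ (tbQ.1 _)
  span a := by
    obtain ⟨γ₀, γ₁, b⟩ := h.spanE (iD a)
    refine ⟨![γ₀, γ₁], b.trans (.trans ?_ (Fin.sum_univ_two _).symm)⟩
    exact congrArg₂ (· + ·) (mul_one _).symm (congrArg (_ * ·) (mul_one _).symm)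
  far γ a := by
    rw [h.nulQ_inj (a₁ := γ) (a₂ := 0)
      (((congrArg (· * _) (lcs_uv _).symm).trans a).trans (map_zero _).symm), map_zero, map_zero]

end Flag

namespace St

open Pre G3C

theorem deg_dot {R J K : Type} [Fintype R] [DecidableEq R] (P : Pre R J K) (d) :
    P.g.deg d = P.θ₀ ⬝ᵥ d := rfl

theorem g3L (h : G3) : G3L := fun P _ D iD C i hP cD eC hn =>
  h (P.pL false false) _ _ _ _ _ _ P.k (hP.pcL false).sub C i iD _ P.g _ 1 P.N hP.capL
    ((hP.dk _ _).bigs hP.zero _) (dvs_pL _ _).subset (hP.capHL cD eC fun s => (hn _).2 ⟨s, rfl⟩)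
    three_deg (fun d => by simp [qw, Pre.c, Pre.g]) (by have := hP.le; omega) P.y 0
    (fun z hz => (fam_mem.1 hz).2.1.y.resolve_right fun a => a.2 ((fam_mem.1 hz).2.2.2.1 _ rfl))
    tbL.2.2.1 fun d => by
      rw [deg_dot, smul_dotProduct]
      simp [Pre.g]

theorem g3R (h : G3) : G3R := fun P _ D iD C i hP cD eC hn =>
  h (P.pR false false) _ _ _ _ _ _ P.k (hP.pcR false).sub C i iD _ P.g _ 1 P.N hP.capR
    ((hP.dk _ _).bigs hP.zero _) (dvs_pR _ _).subset (hP.capHR cD eC fun s => (hn _).2 ⟨s, rfl⟩)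
    three_deg (fun d => by simp [qw, Pre.b, Pre.g]) (by have := hP.le; omega) P.y' 0
    (fun z hz => (fam_mem.1 hz).2.1.y'.resolve_right fun a => a.2 ((fam_mem.1 hz).2.2.2.1 _ rfl))
    tbR.2.2.2 fun d => by
      rw [deg_dot, smul_dotProduct]
      simp [Pre.g]

theorem g3Q (h : G3) : G3Q := fun f _ D iD C i hf cD eC hn =>
  have := hf.ne
  h (f.pE.pR true false) _ _ _ _ _ _ f.pE.k (hf.pE.pcR true).sub C i iD _ f.pE.g _ 4 1 hf.capQ
    ((hf.pE.dk _ _).bigs trivial _) ((dvs_pR _ _).trans (cone_pD _ _ _ _)).subset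
    (hf.capHQ cD eC fun s => (hn _).2 ⟨s, rfl⟩)
    three_deg (fun d => by simp [qw, Pre.b, Pre.g]) one_pos f.pE.y 4
    (fun z hz => (fam_mem.1 hz).2.1.y.resolve_right fun a => nomatch a.1)
    tbQ.2.2.1 fun d => by
      rw [deg_dot, add_dotProduct, sub_dotProduct, smul_dotProduct, smul_dotProduct]
      simp [Pre.g, Pre.y]

end St

end Vale.Agent.P269
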