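import Vale.Agent.P269.Kit.Pre
import Vale.Agent.P269.Asm.DE

/-!
# The invariants of the three caps in the fibre classes: statements
-/

namespace Vale.Agent.P269.St

open P291Z Fock

/-- The left cap; the far section is `y' = 0`. -/
def G3L : Prop :=
  ∀ {R J K : Type} [Fintype R] [Fintype J] [Fintype K] [DecidableEq R] (P : Pre R J K)
    [DecidableEq P.QJ] (D : Deg.Dv) (iD : D.H →ₗ[ℂ] H (P.W.X P.AD)) (C : Deg.Cz D 1)
    (i : C.H →ₗ[ℂ] H (P.W.X (P.AL false))), P.Ok → P.W.IsCoh _ D.toCoh iD → IsEv C.p (parH _) i →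
    (∀ x, (∃ z, i (C.nul z) = x) ↔ ∃ s, P.W.lc (P.AL false) 0 (P.W.w P.y') * s = x) →
    Nonempty (Deg.G3 P.g C (P.sL false C.p i D iD) (-P.g.ξ) 1)

/-- The right cap; the far section is `y = 0`. -/
def G3R : Prop :=
  ∀ {R J K : Type} [Fintype R] [Fintype J] [Fintype K] [DecidableEq R] (P : Pre R J K)
    [DecidableEq P.QJ] (D : Deg.Dv) (iD : D.H →ₗ[ℂ] H (P.W.X P.AD)) (C : Deg.Cz D (-1))
    (i : C.H →ₗ[ℂ] H (P.W.X (P.AR false))), P.Ok → P.W.IsCoh _ D.toCoh iD → IsEv C.p (parH _) i →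
    (∀ x, (∃ z, i (C.nul z) = x) ↔ ∃ s, P.W.lc (P.AR false) 0 (P.W.w P.y) * s = x) →
    Nonempty (Deg.G3 P.g C (P.sR false C.p i D iD) P.g.ξ 1)

/-- The projective completion of the normal bundle; the far section is `u = v = 0`. -/
def G3Q : Prop :=
  ∀ {J K : Type} [Fintype J] [Fintype K] (f : Flag J K) [DecidableEq f.pE.QJ] (D : Deg.Dv)
    (iD : D.H →ₗ[ℂ] H (f.pE.W.X f.pE.AD)) (C : Deg.Cz D (-1))
    (i : C.H →ₗ[ℂ] H (f.pE.W.X (f.pE.AR true))), f.Ok → f.pE.W.IsCoh _ D.toCoh iD →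
    IsEv C.p (parH _) i →
    (∀ x, (∃ z, i (C.nul z) = x) ↔ ∃ s, f.pE.W.lc (f.pE.AR true) 0 (f.pE.W.w (f.pE.o (.inr 0))) *
      f.pE.W.lc (f.pE.AR true) 0 (f.pE.W.w (f.pE.o (.inr 1))) * s = x) →
    Nonempty (Deg.G3 f.pE.g C (f.pE.sR true C.p i D iD) f.pE.g.ξ 4)

end Vale.Agent.P269.St
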