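import Vale.Agent.P269.Coh.Ml
import Vale.Agent.P269.Kit.G3S

/-!
# The two caps with their invariants
-/

set_option linter.unusedSectionVars false

namespace Vale.Agent.P269.Pre

open P291Z Set Function Topology Filter MvPolynomial Fock Coh

variable {R J K : Type} [Fintype R] [Fintype J] [Fintype K] [DecidableEq R] {P : Pre R J K}
  {t : ℂ} {r : ℝ}

variable (P t r) in
/-- The four smoothings over a disc which contains `t`. -/
structure Disc : Prop extends P.Sks t (Metric.ball 0 r) where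
  lt : ‖t‖ < r

theorem Ok.disc (h : P.Ok) : ∃ r : ℝ, 0 < r ∧ ∀ t : ℂ, t ≠ 0 → ‖t‖ < r → P.Disc t r := by
  obtain ⟨r, a, b⟩ := (h.sks.and self_mem_nhdsWithin).exists
  exact ⟨r, b, fun t h0 ht => ⟨a.2 t (mem_ball_zero_iff.2 ht) h0, ht⟩⟩

theorem Ok.exists_disc (h : P.Ok) : ∃ t r, P.Disc t r := by
  obtain ⟨r, a, b⟩ := h.disc
  refine ⟨(r / 2 : ℝ), r, b _ (by simpa using a.ne') ?_⟩
  rw [Complex.norm_real, Real.norm_of_nonneg (by positivity)]
  linarith

variable [DecidableEq P.QJ] (h : P.Ok)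

/-- The relative invariants of the left pieces. -/
noncomputable abbrev Ok.FL (e' : Bool) : Deg.Ser (R ⊕ Bool → ℤ) (Deg.pR (h.pzL e').p h.dv) :=
  P.sL e' (h.pzL e').p .id h.dv .id

/-- The relative invariants of the right pieces. -/
noncomputable abbrev Ok.FR (e : Bool) : Deg.Ser (R ⊕ Bool → ℤ) (Deg.pR (h.pzR e).p h.dv) :=
  P.sR e (h.pzR e).p .id h.dv .id

variable (hK : St.Kit)

include hK in
theorem Ok.relFL (e' : Bool) : (h.FL e').RelL P.g :=
  h.relL hK (C := (h.pzL e').toCoh) (h.qL e').isCoh.ev h.qD.isCoh.ev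

include hK in
theorem Ok.relFR (e : Bool) : (h.FR e).RelR P.g :=
  h.relR hK (C := (h.pzR e).toCoh) (h.qR e).isCoh.ev h.qD.isCoh.ev

namespace Disc

variable (s : P.Disc t r)

/-- **The four smoothings with their invariants.** -/
@[reducible] noncomputable def smo (e e' : Bool) : Deg.Smo P.g (h.FL e') (h.FR e) :=
  h.smo hK s.mem s.ne (s.toSks.isSm h e e') h.qD.isCoh (h.qL e').isCoh.ev (h.qR e).isCoh.ev
    (h.qX s.mem s.ne e e').isCoh.ev s.lt fun _ => h.mem_AT

theorem smo_X (e e' : Bool) : (s.smo h hK e e').X = s.toSks.sm h e e' := rfl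

theorem smo_Z (e e' : Bool) :
    (s.smo h hK e e').Z = P.sX e e' t (h.qX s.mem s.ne e e').ps.coh.p .id := rfl

theorem node (e e' : Bool) : (s.smo h hK e e').Z.Node :=
  h.node hK s.mem s.ne (h.qX s.mem s.ne e e').isCoh

variable (gL : St.G3L) (gR : St.G3R)

/-- **The two caps.** -/
@[reducible] noncomputable def cap : Deg.CapIn P.g h.dv where
  P' := h.czL
  P := h.czR
  F' := h.FL false
  F := h.FR false
  relL := h.relFL hK false
  relR := h.relFR hK false
  g3L := (gL P h.dv .id h.czL .id h h.qD.isCoh (h.qL false).isCoh.ev h.czL_range).some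
  g3R := (gR P h.dv .id h.czR .id h h.qD.isCoh (h.qR false).isCoh.ev h.czR_range).some
  sm := s.smo h hK false false
  surj := s.toSks.surj h

variable {h} {νD ν₁ ν₂ ν} (gD : Wt.Gr h.qD νD) (g₁ : Wt.Gr (h.qL false) ν₁)
  (g₂ : Wt.Gr (h.qR false) ν₂) (g : Wt.Gr (h.qX s.mem s.ne false false) ν)
  (p₁ : Cg (h.πD _ _) νD ν₁) (p₂ : Cg (h.πD _ _) νD ν₂) (p : Cg (h.πD _ _) νD ν)

/-- **The Virasoro data on the caps.** -/
@[reducible] noncomputable def capVir (v : Deg.VirD P.g (g.vd (P.κ false false))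
    (P.sX false false t (h.qX s.mem s.ne false false).ps.coh.p .id)) :
    (s.cap h hK gL gR).Vir P.g (gD.vd (P.κ true true)) where
  d' := g₁.vd (P.κ true false)
  d := g₂.vd (P.κ false true)
  dX := g.vd (P.κ false false)
  cmp' := cmpL gD g₁ (cp_jL gD g₁ p₁)
  cmp := cmpR gD g₂ (cp_jR gD g₂ p₂)
  rel := s.toSks.relD_cap gD g₁ g₂ g p₁ p₂ p
  vir := v

end Disc

end Vale.Agent.P269.Pre
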