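import Vale.Agent.P269.Prj.Alg
import Vale.Agent.P269.Deg.SigA
import Vale.Agent.P269.Kit.Glue

/-! The Virasoro constraints only depend on the isomorphism class of the data. -/

namespace Vale.Agent.P269.Deg

open Fock

/-- An isomorphism of cohomology spaces. -/
structure Coh.Iso (C C' : Coh) (Ψ : C.H ≃ₗ[ℂ] C'.H) : Prop where
  ev : IsEv C.p C'.p Ψ.toLinearMap
  η : ∀ v w, C'.fr.η (Ψ v) (Ψ w) = C.fr.η v w
  one : Ψ C.fr.one = C'.fr.one

theorem virC_same {H : Type} [AddCommGroup H] [Module ℂ H] [FiniteDimensional ℂ H] {p : Par ℂ H}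
    {ι ι' : Type} [Fintype ι] [Fintype ι'] {fr : Frame p ι} {fr' : Frame p ι'} (hη : fr.η = fr'.η)
    (h1 : fr.one = fr'.one) {d : VD fr} {d' : VD fr'} (hμ : d.μ = d'.μ) (hρ : d.ρ = d'.ρ)
    (Z : ℤ → S (p.fs ℕ) →ₗ[ℂ] ℂ) : d.VirC Z ↔ d'.VirC Z := by
  have e : ∀ k, d.ell k = d'.ell k := fun k => by rw [VD.ell, VD.ell, VD.D, VD.D, hμ, hρ]
  have e0 : d.c0 = d'.c0 := by rw [VD.c0, VD.c0, SigP.str_eq, SigP.str_eq, hμ]
  have a0 : fr.q0 = fr'.q0 := funext fun A => by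
    rw [Frame.q0, Frame.q0, Frame.dil, Frame.dil, h1]
  have am : fr.qm = fr'.qm := funext fun A => by
    unfold Frame.qm Frame.qf
    rw [B.same_neg hη, Frame.dil, Frame.dil, h1]
  have a1 : ∀ k, fr.q1 (d'.ell k) = fr'.q1 (d'.ell k) := fun k => by
    have := B.same_qz hη h1 (d.quad_ell k)
    rw [Frame.qz_eq, Frame.qz_eq, a0, am, e] at this
    exact add_left_cancel this
  simp only [VD.VirC, e, e0, a0, am, a1]

variable {C C' : Coh} {Ψ : C.H ≃ₗ[ℂ] C'.H} (h : C.Iso C' Ψ) {d : VD C.fr} {d' : VD C'.fr}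
  (hμ : ∀ v, Ψ (d.μ v) = d'.μ (Ψ v)) (hρ : ∀ v, Ψ (d.ρ v) = d'.ρ (Ψ v))
include h hμ hρ

theorem Coh.Iso.virC (Z : ℤ → S (C'.p.fs ℕ) →ₗ[ℂ] ℂ) :
    d.VirC (fun j => Z j ∘ₗ (Fock.map _ (isEv_vv h.ev)).toLinearMap) ↔ d'.VirC Z :=
  (virC_same (d' := d'.cm Ψ h.ev) (LinearMap.ext₂ fun v w => (h.η v w).symm)
    (Ψ.injective (h.one.trans Frame.cm_one.symm))
    (LinearMap.ext fun v => Ψ.injective ((hμ v).trans (d'.cm_μ v).symm))
    (LinearMap.ext fun v => Ψ.injective ((hρ v).trans (d'.cm_ρ v).symm)) _).trans (d'.virC_cm Z)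

theorem Coh.Iso.virD {Γ : Type} [AddCommGroup Γ] (g : Grd Γ) (Z : Ser Γ (pT C'.p)) :
    VirD g d (fun β j => Z β j ∘ₗ (Fock.map _ (isEv_lp h.ev)).toLinearMap) ↔ VirD g d' Z := by
  refine forall_congr' fun n =>
    Iff.trans (iff_of_eq (congrArg _ (funext fun j => ?_))) (h.virC hμ hρ _)
  have hs : Function.Surjective (Fock.map _ (isEv_lp h.ev)) := map_surjective _
    ((Finsupp.mapRange_surjective _ (map_zero _) Ψ.surjective).prodMap Function.surjective_id)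
  have hi : ∀ T : S (pT C'.p) →ₗ[ℂ] ℂ,
      (LinearMap.lcomp ℂ ℂ (Fock.map _ (isEv_lp h.ev)).toLinearMap).toAddMonoidHom T = 0 → T = 0 :=
    fun T e => LinearMap.ext (hs.forall.2 fun x => LinearMap.congr_fun e x)
  have e := AddMonoidHom.map_finsum_of_preimage_zero _ hi fun β => ∑ᶠ (_ : g.deg β = n), Z β j
  simp only [AddMonoidHom.map_finsum_Prop] at e
  refine (congrArg (· ∘ₗ _) e.symm).trans (LinearMap.ext fun x =>
    congrArg (fun y => (∑ᶠ (β) (_ : g.deg β = n), Z β j) y) ?_)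
  exact InB.map_map' (isEv_inl _ _) (isEv_lp h.ev) (isEv_vv h.ev) (isEv_inl _ _) (fun v => by simp) x

end Vale.Agent.P269.Deg
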