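import Vale.Agent.P269.G3.Defs
import Vale.Agent.P269.Kit.G3S
import Vale.Agent.P269.Asm.EPre

/-!
# The three caps are caps
-/

set_option linter.unusedSectionVars false

namespace Vale.Agent.P269

open P291Z Set Function Topology Filter MvPolynomial

namespace Pre

variable {R J K : Type} [Fintype R] [Fintype J] [Fintype K] [DecidableEq R] (P : Pre R J K)

/-- The fibre class of the left cap. -/
def φL : R ⊕ Bool → ℤ := Sum.elim (Pi.single P.η 1) fun o => cond o (-P.β) (-1)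

/-- The fibre class of the right cap. -/
def φR : R ⊕ Bool → ℤ := Sum.elim (-Pi.single P.η 1) fun o => cond o (P.β + 1) 1

/-- The class of a line in a fibre of the completed normal bundle. -/
def φQ : R ⊕ Bool → ℤ := Sum.elim 0 fun o => cond o P.β 1

variable {P}

namespace G3C

theorem dot_L (c : R ⊕ Bool → ℤ) :
    c ⬝ᵥ P.φL = c (.inl P.η) - P.β * c (.inr true) - c (.inr false) := by
  simp [dotProduct, φL, Pi.single_apply]
  ring

theorem dot_R (c : R ⊕ Bool → ℤ) :
    c ⬝ᵥ P.φR = -c (.inl P.η) + (P.β + 1) * c (.inr true) + c (.inr false) := by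
  simp [dotProduct, φR, Pi.single_apply]
  ring

theorem dot_Q (c : R ⊕ Bool → ℤ) : c ⬝ᵥ P.φQ = P.β * c (.inr true) + c (.inr false) := by
  simp [dotProduct, φQ]
  ring

theorem tbL : (∀ c, P.up c ⬝ᵥ P.φL = 0) ∧ P.qw (.inr 1) ⬝ᵥ P.φL = 1 ∧ P.qw (.inr 2) ⬝ᵥ P.φL = 0 ∧
    P.qw (.inr 3) ⬝ᵥ P.φL = 1 := by
  simp only [dot_L]
  simp [qw, up]

theorem tbR : (∀ c, P.up c ⬝ᵥ P.φR = 0) ∧ P.qw (.inr 0) ⬝ᵥ P.φR = 1 ∧ P.qw (.inr 2) ⬝ᵥ P.φR = 1 ∧
    P.qw (.inr 3) ⬝ᵥ P.φR = 0 := by
  simp only [dot_R]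
  simp [qw, up]

theorem tbQ : (∀ c, P.up c ⬝ᵥ P.φQ = c P.η) ∧ P.qw (.inr 0) ⬝ᵥ P.φQ = 1 ∧
    P.qw (.inr 2) ⬝ᵥ P.φQ = 0 ∧ P.qw (.inr 3) ⬝ᵥ P.φQ = 0 := by
  simp only [dot_Q]
  simp [qw, up]

variable {e e' : Bool} {i : Fin 4} {φ : R ⊕ Bool → ℤ} {z z' : (Option Empty → ℂ) × (P.QJ → ℂ)}

theorem ext_q {Z} (hz : z ∈ ((P.fam e e').sub (slab univ 0) Z).cone)
    (hz' : z' ∈ ((P.fam e e').sub (slab univ 0) Z).cone) (a : ∀ j, z.2 (.inl j) = z'.2 (.inl j)) :
    z = z' :=
  have b := fam_mem.1 hz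
  have c := fam_mem.1 hz'
  Prod.ext (((slab_eq 0).le b.1).trans ((slab_eq 0).le c.1).symm) (funext (Sum.rec a fun q => by
    simp only [b.2.2.2.2, c.2.2.2.2, a]))

theorem fib_of {O : Type} [Fintype O]
    (hz : z ∈ ((P.fam e e').sub (slab univ 0) {.inl (.inr i)}).cone) (hi : i = 0 ∨ i = 1)
    (σ : J ⊕ Fin 4 → MvPolynomial O ℂ)
    (hom : ∀ j, IsWeightedHomogeneous (fun _ => (1 : ℤ)) (σ j) (P.qw j ⬝ᵥ φ)) (h0 : σ (.inr i) = 0)
    (v₀ : O → ℂ) (ev : ∀ j, eval v₀ (σ j) = z.2 (.inl j))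
    (mem : ∀ v ≠ 0, P.Pt e e' (fun j => eval v (σ (.inl j))) fun i => eval v (σ (.inr i))) :
    ∃ τ : P.QJ → MvPolynomial O ℂ, (∀ j, ∀ α ∈ (τ j).support, (∑ o, α o : ℕ) = P.W.w j ⬝ᵥ φ) ∧
      (∀ j, P.W.w j ⬝ᵥ φ = 0 → τ j = C (z.2 j)) ∧ (∀ j, τ (.inl j) = σ j) ∧
      ∀ v ≠ 0, (lt 0, fun j => eval v (τ j)) ∈
        ((P.fam e e').sub (slab univ 0) {.inl (.inr i)}).cone := by
  let τ : P.QJ → MvPolynomial O ℂ := Sum.elim σ fun p => ∏ j, σ j ^ p.α j
  have a : ∀ j, IsWeightedHomogeneous (fun _ => (1 : ℤ)) (τ j) (P.W.w j ⬝ᵥ φ) := by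
    refine Sum.rec hom fun p => ?_
    have := IsWeightedHomogeneous.prod Finset.univ (fun j => σ j ^ p.α j) _
      fun j _ => (hom j).pow (p.α j)
    have e : ∑ j, p.α j • (P.qw j ⬝ᵥ φ) = P.W.w (.inr p) ⬝ᵥ φ := by
      change _ = ∑ r, p.c r * φ r
      simp only [← p.wt, dotProduct, Finset.sum_mul, Finset.mul_sum, nsmul_eq_mul, mul_assoc]
      exact Finset.sum_comm
    exact e ▸ this
  have b : ∀ j, ∀ α ∈ (τ j).support, (∑ o, α o : ℕ) = P.W.w j ⬝ᵥ φ := fun j α hα => by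
    simpa using qg_iff.1 (a j) α hα
  have c : ∀ j, eval v₀ (τ j) = z.2 j := Sum.rec ev fun p => by
    simp only [τ, Sum.elim_inr, map_prod, map_pow, ev, (fam_mem.1 hz).2.2.2.2]
  refine ⟨τ, b, fun j hj => ?_, fun _ => rfl, fun v hv => fam_mem.2 ⟨⟨trivial, rfl⟩, mem v hv, ?_,
    fun j hj => ?_, fun p => ?_⟩⟩
  · have d : (τ j).totalDegree = 0 := (totalDegree_eq_zero_iff _ _).2 fun α hα o => by
      have := b j α hα
      rw [hj, Int.natCast_eq_zero, Finset.sum_eq_zero_iff] at this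
      exact this o (Finset.mem_univ o)
    rw [← c j, totalDegree_eq_zero_iff_eq_C.1 d, eval_C]
  · change eval v (σ (.inr 0)) * eval v (σ (.inr 1)) = 0
    rcases hi with rfl | rfl <;> simp [h0]
  · rw [show j = .inl (.inr i) from hj]
    exact (congrArg (MvPolynomial.eval v) h0).trans (map_zero _)
  · simp only [τ, Sum.elim_inr, Sum.elim_inl, map_prod, map_pow]

theorem c1_eq (h : P.Ok) (e e' : Bool) (B Z) (φ : R ⊕ Bool → ℤ)
    {_ : DecidablePred (· ∈ ((P.fam e e').sub B Z).mov)} {_ : DecidablePred (· ∈ (univ : Set P.QK))} :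
    ∑ j with j ∈ ((P.fam e e').sub B Z).mov, ((P.fam e e').sub B Z).w j ⬝ᵥ φ -
      ∑ k with k ∈ univ, ((P.fam e e').sub B Z).χ k ⬝ᵥ φ =
      (P.up (∑ j, P.w j - ∑ k, P.χ k) + cond e 0 (P.qw (.inr 2)) + cond e' 0 (P.qw (.inr 3))) ⬝ᵥ φ := by
  classical
  have a : ∑ j with j ∈ (P.fam e e').mov, P.W.w j ⬝ᵥ φ = ∑ j, P.W.w j ⬝ᵥ φ := by
    rw [← Finset.sum_filter_add_sum_filter_not Finset.univ (· ∈ (P.fam e e').mov),
      show (Finset.univ.filter fun j => j ∉ (P.fam e e').mov) = {P.b, P.c} from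
        Finset.ext fun j => by simp [eq_comm, ← or_iff_not_imp_left], Finset.sum_pair (by simp)]
    simp [qw, b, c]
  rw [a, Finset.filter_true_of_mem fun _ _ => mem_univ _, Fintype.sum_sum_type,
    Fintype.sum_sum_type (fun k => (P.fam e e').χ k ⬝ᵥ φ)]
  refine (add_sub_add_right_eq_sub _ _ _).trans ?_
  rw [← sum_dotProduct, ← sum_dotProduct, ← sub_dotProduct]
  refine congrArg (· ⬝ᵥ φ) (funext fun r => ?_)
  rw [Pi.sub_apply, Finset.sum_apply, Finset.sum_apply]
  rcases r with r | _ | _ <;> cases e <;> cases e' <;>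
    simp [qw, up, h.wz, h.wz', Fin.sum_univ_four] <;> ring

theorem gn_of {B Z} {c : R ⊕ Bool → ℤ} (a : ∀ z ∈ ((P.fam e e').sub B Z).cone,
    ∃ α : J ⊕ Fin 4 → ℕ, (∀ i, ∑ j, α j * P.qw j i = c i) ∧ ∏ j, z.2 (.inl j) ^ α j ≠ 0) :
    ((P.fam e e').sub B Z).Gn c := fun z hz =>
  let ⟨α, h1, h2⟩ := a z hz
  ⟨Sum.elim α 0, fun i => by simpa using h1 i, by simpa using h2⟩

theorem base_iff [DecidableEq P.QJ] {i i' : Fin 4} (hi : i = 0 ∧ i' = 1 ∨ i = 1 ∧ i' = 0) (j : P.QJ) :
    j ∉ (P.fam e e').mov ∧ j ∉ ({.inl (.inr i)} : Set P.QJ) ↔ j = .inl (.inr i') := by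
  rcases hi with ⟨rfl, rfl⟩ | ⟨rfl, rfl⟩ <;> simp [eq_comm] <;> grind

theorem hX {O : Type} {o : O} {m : ℤ} (h : m = 1) :
    IsWeightedHomogeneous (fun _ => (1 : ℤ)) (X o : MvPolynomial O ℂ) m :=
  h ▸ isWeightedHomogeneous_X ℂ _ o

theorem hC {O : Type} {a : ℂ} {m : ℤ} (h : m = 0) :
    IsWeightedHomogeneous (fun _ : O => (1 : ℤ)) (C a) m := h ▸ isWeightedHomogeneous_C _ a

theorem sgl (r : R ⊕ Bool) {s : ℤ} (hs : |s| ≤ 1) (i) : |(s • Pi.single r 1 : _ → ℤ) i| ≤ 1 := by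
  rw [Pi.smul_apply, Pi.single_apply]
  split_ifs <;> simp [hs]

end G3C

open G3C

variable [DecidableEq P.QJ] (h : P.Ok)
include h

theorem Ok.capL : (P.pL false false).Cap (lt 0) P.c (ρ := 0) (fun _ => P.y') P.φL
    (P.N • (P.θ₀ + Pi.single (.inr false) 1)) univ where
  nice := (h.dk false false).nice.1
  B := slab_eq 0
  reg := (h.fam_reg false false).sub ((h.fam_deg _ _).slab_sub h.zero) ((h.fam_deg _ _).zer_sub _)
  base := base_iff (.inl ⟨rfl, rfl⟩)
  inj := injective_of_subsingleton (α := Fin 1) _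
  mov _ := by simp
  wb := tbL.2.1
  wI _ := tbL.2.2.2
  χφ := by simp [dot_L, θ₀, h.θη]; ring
  gn r s hs := gn_of fun z hz => by
    have a := fam_mem.1 hz
    have hN := h.le
    have b := sgl r hs
    let ε : R ⊕ Bool → ℤ :=
      s • Pi.single r 1 + (P.N + s * P.φL r) • Pi.single (.inr false) 1
    have c := QAmp.amp_aux h (z := z.2 ∘ .inl) a.2.1.mem (ε := ε)
      (fun r => by simpa [ε] using b (.inl r)) 1 (ε (.inl P.η)) 0 0 (2 * P.N + ε (.inr true)) 0
      (by simp) (le_trans (by simpa [ε] using b (.inl P.η)) (by omega : (1 : ℤ) ≤ _)) le_rfl le_rfl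
      (by have := abs_le.1 (b (.inr true)); simp [ε] at this ⊢; omega) le_rfl (by ring)
      (by
        have := dot_L (P := P) (Pi.single r 1)
        rw [single_dotProduct] at this
        simp [ε] at this ⊢
        rw [this]; ring) (by ring) (.inl rfl) (.inl rfl)
      (.inr (a.2.1.y.resolve_right fun d => d.2 (a.2.2.2.1 _ rfl))) (.inl rfl)
    refine c.imp fun α d => ⟨fun i => (d.1 i).trans ?_, d.2⟩
    simp [ε, qw, Pre.c]
    ring
  nz z hz := (fam_mem.1 hz).2.1.y'.symm.imp And.right fun a => ⟨0, a⟩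
  ext z hz z' hz' a b c := ext_q hz hz' fun j => by
    rcases j with j | j
    · exact a _ (tbL.1 _)
    · fin_cases j
      exacts [((fam_mem.1 hz).2.2.2.1 _ rfl).trans ((fam_mem.1 hz').2.2.2.1 _ rfl).symm, b,
        a _ tbL.2.2.1, c 0]
  fib z hz := by
    have a := fam_mem.1 hz
    have b := a.2.2.2.1 _ rfl
    obtain ⟨τ, h1, h2, h3, h4⟩ := fib_of (φ := P.φL) (O := Option (Fin (0 + 1))) hz (.inl rfl)
      (Sum.elim (fun j => C (z.2 (P.o j))) ![0, X none, C (z.2 P.y), X (some 0)])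
      (fun j => by
        rcases j with j | j
        · exact hC (tbL.1 _)
        · fin_cases j
          exacts [isWeightedHomogeneous_zero _ _ _, hX tbL.2.1, hC tbL.2.2.1, hX tbL.2.2.2]) rfl
      (fun o => o.elim (z.2 P.c) fun _ => z.2 P.y')
      (fun j => by
        rcases j with j | j
        · simp
        · fin_cases j <;> simp [b])
      fun v hv => by
        have c : z.2 P.y ≠ 0 := a.2.1.y.resolve_right fun d => d.2 b
        simp only [Sum.elim_inl, Sum.elim_inr, eval_C]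
        refine ⟨a.2.1.mem, a.2.1.z, a.2.1.z', .inl (by simpa), ?_, .inl (by simpa)⟩
        simpa [funext_iff, Option.forall, Fin.forall_fin_succ, imp_iff_not_or, or_comm] using hv
    exact ⟨τ, h1, h2, h3 _, fun a => (h3 _).trans (by rw [Fin.fin_one_eq_zero a]; rfl), h4⟩
  c1 := (c1_eq h false false _ _ P.φL).trans (by simp [add_dotProduct, tbL])

theorem Ok.capR : (P.pR false false).Cap (lt 0) P.b (ρ := 0) (fun _ => P.y) P.φR
    (P.N • (P.θ₀ - Pi.single (.inr false) 1)) univ where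
  nice := (h.dk false false).nice.2.1
  B := slab_eq 0
  reg := (h.fam_reg false false).sub ((h.fam_deg _ _).slab_sub h.zero) ((h.fam_deg _ _).zer_sub _)
  base := base_iff (.inr ⟨rfl, rfl⟩)
  inj := injective_of_subsingleton (α := Fin 1) _
  mov _ := by simp
  wb := tbR.2.1
  wI _ := tbR.2.2.1
  χφ := by simp [dot_R, θ₀, h.θη]; ring
  gn r s hs := gn_of fun z hz => by
    have a := fam_mem.1 hz
    have hN := h.le
    have b := sgl r hs
    let ε : R ⊕ Bool → ℤ :=
      s • Pi.single r 1 - (P.N + s * P.φR r) • Pi.single (.inr false) 1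
    have c := QAmp.amp_aux h (z := z.2 ∘ .inl) a.2.1.mem (ε := ε)
      (fun r => by simpa [ε] using b (.inl r)) (-1) (ε (.inl P.η) - ε (.inr true)) 0 0 0
      (2 * P.N + ε (.inr true)) (by simp)
      (by
        refine le_trans ?_ (by omega : (1 : ℤ) ≤ _)
        by_cases q : r = .inr true
        · simpa [ε, q] using hs
        · simpa [ε, Pi.single_eq_of_ne' q] using b (.inl P.η)) le_rfl le_rfl le_rfl
      (by have := abs_le.1 (b (.inr true)); simp [ε] at this ⊢; omega) (by ring)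
      (by
        have := dot_R (P := P) (Pi.single r 1)
        rw [single_dotProduct] at this
        simp [ε] at this ⊢
        rw [this]; ring) (by ring) (.inl rfl) (.inl rfl) (.inl rfl)
      (.inr (a.2.1.y'.resolve_right fun d => d.2 (a.2.2.2.1 _ rfl)))
    refine c.imp fun α d => ⟨fun i => (d.1 i).trans ?_, d.2⟩
    simp [ε, qw, Pre.b]
    ring
  nz z hz := (fam_mem.1 hz).2.1.y.symm.imp And.right fun a => ⟨0, a⟩
  ext z hz z' hz' a b c := ext_q hz hz' fun j => by
    rcases j with j | j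
    · exact a _ (tbR.1 _)
    · fin_cases j
      exacts [b, ((fam_mem.1 hz).2.2.2.1 _ rfl).trans ((fam_mem.1 hz').2.2.2.1 _ rfl).symm, c 0,
        a _ tbR.2.2.2]
  fib z hz := by
    have a := fam_mem.1 hz
    have b := a.2.2.2.1 _ rfl
    obtain ⟨τ, h1, h2, h3, h4⟩ := fib_of (φ := P.φR) (O := Option (Fin (0 + 1))) hz (.inr rfl)
      (Sum.elim (fun j => C (z.2 (P.o j))) ![X none, 0, X (some 0), C (z.2 P.y')])
      (fun j => by
        rcases j with j | j
        · exact hC (tbR.1 _)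
        · fin_cases j
          exacts [hX tbR.2.1, isWeightedHomogeneous_zero _ _ _, hX tbR.2.2.1, hC tbR.2.2.2]) rfl
      (fun o => o.elim (z.2 P.b) fun _ => z.2 P.y)
      (fun j => by
        rcases j with j | j
        · simp
        · fin_cases j <;> simp [b])
      fun v hv => by
        have c : z.2 P.y' ≠ 0 := a.2.1.y'.resolve_right fun d => d.2 b
        simp only [Sum.elim_inl, Sum.elim_inr, eval_C]
        refine ⟨a.2.1.mem, a.2.1.z, a.2.1.z', ?_, .inl (by simpa), .inr (by simpa)⟩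
        simpa [funext_iff, Option.forall, Fin.forall_fin_succ, imp_iff_not_or, or_comm] using hv
    exact ⟨τ, h1, h2, h3 _, fun a => (h3 _).trans (by rw [Fin.fin_one_eq_zero a]; rfl), h4⟩
  c1 := (c1_eq h false false _ _ P.φR).trans (by simp [add_dotProduct, tbR])

end Pre

namespace Flag

open Pre G3C EP

variable {J K : Type} [Fintype J] [Fintype K] {f : Flag J K} [DecidableEq f.pE.QJ] (h : f.Ok)

variable (f) in
/-- The fields `u`, `v`. -/
noncomputable def uv (a : Fin (1 + 1)) : f.pE.QJ := f.pE.o (.inr ⟨a, by omega⟩)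

include h

theorem Ok.capQ : (f.pE.pR true false).Cap (lt 0) f.pE.b f.uv f.pE.φQ
    (f.pE.θ₀ - 4 • Pi.single (.inr false) 1 + 4 • f.pE.qw (.inr 2)) univ where
  nice := (h.pE.dk true false).nice.2.1
  B := slab_eq 0
  reg := (h.pE.fam_reg true false).sub ((h.pE.fam_deg _ _).slab_sub trivial)
    ((h.pE.fam_deg _ _).zer_sub _)
  base := base_iff (.inr ⟨rfl, rfl⟩)
  inj a b e := by simpa [uv, Fin.ext_iff] using e
  mov _ := by simp [uv]
  wb := tbQ.2.1
  wI a := (tbQ.1 _).trans (by fin_cases a <;> rfl)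
  χφ := by simp [dot_Q, θ₀, qw, Flag.pE]
  gn r s hs := gn_of fun z hz => by
    classical
    have a := fam_mem.1 hz
    have b := fun i => abs_le.1 (sgl r hs i)
    obtain ⟨j, hj⟩ := Function.ne_iff.1 (mem_pE.1 a.2.1.mem).1.1
    have c : z.2 f.pE.y ≠ 0 := a.2.1.y.resolve_right fun d => nomatch d.1
    have d : z.2 f.pE.y' ≠ 0 := a.2.1.y'.resolve_right fun d => d.2 (a.2.2.2.1 _ rfl)
    set ε : Option Unit ⊕ Bool → ℤ := s • Pi.single r 1
    obtain ⟨n₁, e₁⟩ := Int.eq_ofNat_of_zero_le (a := 6 * f.a + 7 + ε (.inl (some ())))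
      (by have := b (.inl (some ())); omega)
    obtain ⟨n₂, e₂⟩ := Int.eq_ofNat_of_zero_le (a := 1 + ε (.inr true) - ε (.inl none))
      (by
        by_cases q : r = .inr true
        · have := abs_le.1 hs
          simp [ε, q]
          omega
        · have := b (.inl none)
          simp [ε, Pi.single_eq_of_ne' q] at this ⊢
          omega)
    obtain ⟨n₃, e₃⟩ := Int.eq_ofNat_of_zero_le (a := 5 + ε (.inl none))
      (by have := b (.inl none); omega)
    refine ⟨Sum.elim (Pi.single (.inl j) n₁) ![0, 0, n₂, n₃], fun i => ?_, ?_⟩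
    · have t := dot_Q (P := f.pE) (Pi.single r 1)
      rw [single_dotProduct] at t
      rw [Fintype.sum_sum_type, Fin.sum_univ_four, Finset.sum_eq_single (.inl j)
        (fun _ _ q => by simp [q]) (by simp)]
      simp only [Sum.elim_inl, Sum.elim_inr, Pi.single_eq_same, Matrix.cons_val, ← e₁, ← e₂, ← e₃]
      rw [one_mul] at t
      rw [t]
      rcases i with (_ | _) | _ | _ <;> simp [ε, θ₀, qw, up, Flag.pE, wv] <;> ring
    · rw [Fintype.prod_sum_type, Fin.prod_univ_four, Finset.prod_eq_single (.inl j)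
        (fun _ _ q => by simp [q]) (by simp)]
      simpa using ⟨fun q => (hj q).elim, fun q => (c q).elim, fun q => (d q).elim⟩
  nz z hz := by
    have a := (fam_mem.1 hz).2.1
    have d : z.2 f.pE.y ≠ 0 := a.y.resolve_right fun d => nomatch d.1
    rcases a.mem.1.2 with b | b | b
    · exact .inr ⟨0, b⟩
    · exact .inr ⟨1, b⟩
    · exact .inl (left_ne_zero_of_mul (a.z ▸ mul_ne_zero d b :))
  ext z hz z' hz' a b c := ext_q hz hz' fun j => by
    have p := fam_mem.1 hz
    have p' := fam_mem.1 hz'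
    have y : z.2 f.pE.y = z'.2 f.pE.y := a _ tbQ.2.2.1
    have y' : z.2 f.pE.y' = z'.2 f.pE.y' := a _ tbQ.2.2.2
    rcases j with (j | j) | j
    · exact a _ (tbQ.1 _)
    · fin_cases j
      · exact c 0
      · exact c 1
      · refine mul_left_cancel₀ (p.2.1.y.resolve_right fun d => nomatch d.1) (p.2.1.z.trans ?_)
        exact (congrArg₂ (· * ·) b y').trans (p'.2.1.z.symm.trans (congrArg (· * _) y.symm))
      · exact p.2.1.z'.trans p'.2.1.z'.symm
    · fin_cases j
      exacts [b, (p.2.2.2.1 _ rfl).trans (p'.2.2.2.1 _ rfl).symm, y, y']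
  fib z hz := by
    have a := fam_mem.1 hz
    have b := a.2.2.2.1 _ rfl
    have c : z.2 f.pE.y ≠ 0 := a.2.1.y.resolve_right fun d => nomatch d.1
    have d : z.2 f.pE.y' ≠ 0 := a.2.1.y'.resolve_right fun d => d.2 b
    have e : z.2 f.pE.y * z.2 (f.pE.o (.inr 2)) = z.2 f.pE.b * z.2 f.pE.y' := a.2.1.z
    have e' : z.2 (f.pE.o (.inr 3)) = 0 := a.2.1.z'
    obtain ⟨τ, h1, h2, h3, h4⟩ := fib_of (φ := f.pE.φQ) (O := Option (Fin (1 + 1))) hz (.inr rfl)
      (Sum.elim (Sum.elim (fun j => C (z.2 (f.pE.o (.inl j))))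
        ![X (some 0), X (some 1), C (z.2 f.pE.y' / z.2 f.pE.y) * X none, 0])
        ![X none, 0, C (z.2 f.pE.y), C (z.2 f.pE.y')])
      (fun j => by
        rcases j with (j | j) | j
        · exact hC (tbQ.1 _)
        · fin_cases j
          exacts [hX (tbQ.1 _), hX (tbQ.1 _), (hX (tbQ.1 _)).C_mul _,
            isWeightedHomogeneous_zero _ _ _]
        · fin_cases j
          exacts [hX tbQ.2.1, isWeightedHomogeneous_zero _ _ _, hC tbQ.2.2.1, hC tbQ.2.2.2]) rfl
      (fun o => o.elim (z.2 f.pE.b) fun a => z.2 (f.uv a))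
      (fun j => by
        rcases j with (j | j) | j
        · simp
        · fin_cases j
          · simp [uv]
          · simp [uv]
          · simp
            field_simp
            linear_combination -e
          · simp [e']
        · fin_cases j <;> simp [b])
      fun v hv => by
        obtain ⟨⟨m1, -⟩, m2, m3, m4⟩ := mem_pE.1 a.2.1.mem
        refine ⟨mem_pE.2 ?_, ?_, ?_, .inl (by simpa), .inl (by simpa), .inl (by simpa)⟩
        · simp only [comp_def, Sum.elim_inl, Sum.elim_inr, eval_C] at m1 m2 m3 m4 ⊢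
          refine ⟨⟨m1, fun q => hv (funext fun o => ?_)⟩, m2, by simpa [e'] using m3,
            by simpa [e'] using m4⟩
          rcases o with _ | o
          · simpa [tl, c, d] using congrFun q 2
          · fin_cases o
            exacts [by simpa [tl] using congrFun q 0, by simpa [tl] using congrFun q 1]
        · simp [show f.pE.z = .inr 2 from rfl]
          field_simp
        · simp [show f.pE.z' = .inr 3 from rfl]
    exact ⟨τ, h1, h2, h3 _, fun a => (h3 _).trans (by fin_cases a <;> rfl), h4⟩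
  c1 := (c1_eq h.pE true false _ _ f.pE.φQ).trans (by
    simp only [add_dotProduct, tbQ, cond_true, cond_false, zero_dotProduct]
    simp [Flag.pE, wv, Fin.sum_univ_four])

end Flag

end Vale.Agent.P269
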